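import Vale.Agent.P235.XC.Defs
import Vale.Agent.P235.K5.H707.Tricho

/-! P235, line XC, [X1] (helper531): cross or a cut with three vertices. -/

set_option autoImplicit false

namespace Vale.Agent.P235.XC.H531

open SimpleGraph Vale.Agent.P235.H134 Vale.Agent.P235.H56
open Vale.Agent.P235.H830 (nbr)
open Vale.Agent.P235.K5.W.H531 (Con Tch con_union)
open Vale.Agent.P235.K5.H707 (Cn cn_iff tricho exists_comp Heavy)

variable {V : Type} {G : SimpleGraph V} {B : Set V} {x : Fin 4 → V} {N : Fin 3 → Set V}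
  {M : Fin 2 → Set V}

theorem con_nonempty {X : Set V} (h : Con G X) : X.Nonempty := by
  obtain ⟨⟨v, hv⟩⟩ := h.nonempty
  exact ⟨v, hv⟩

/-- a move inside `N i` -/
theorem St.move (h : St G B x N M) (i : Fin 3) {N' : Set V} {M' : Fin 2 → Set V}
    (hN : Con G N') (hNi : N' ⊆ N i) (hr : ∀ a, x a ∈ N i → x a ∈ N')
    (hM : ∀ j, Con G (M' j)) (hMM : ∀ j, M j ⊆ M' j) (hMN : ∀ j, M' j ⊆ M j ∪ N i)
    (hd : Disjoint (M' 0) (M' 1)) (hdN : ∀ j, Disjoint N' (M' j)) (ht : ∀ j, Tch G N' (M' j)) :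
    St G B x (Function.update N i N') M' := by
  have hdi : ∀ i' j, i' ≠ i → Disjoint (N i') (M' j) := fun i' j hi =>
    Disjoint.mono_right (hMN j) (Set.disjoint_union_right.2 ⟨h.dNM i' j, h.dN i' i hi⟩)
  refine ⟨fun i' => ?_, hM, fun i' j' hij => ?_, hd, fun i' j => ?_, fun i' => ?_, fun j => ?_,
    fun i' j => ?_, ?_, ?_, ?_, ?_⟩
  · by_cases hi : i' = i
    · subst hi; rw [Function.update_self]; exact hN
    · rw [Function.update_of_ne hi]; exact h.cN i'
  · by_cases hi : i' = i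
    · subst hi
      rw [Function.update_self, Function.update_of_ne (Ne.symm hij)]
      exact Disjoint.mono_left hNi (h.dN _ _ hij)
    · by_cases hj : j' = i
      · subst hj
        rw [Function.update_self, Function.update_of_ne hi]
        exact Disjoint.mono_right hNi (h.dN _ _ hij)
      · rw [Function.update_of_ne hi, Function.update_of_ne hj]
        exact h.dN _ _ hij
  · by_cases hi : i' = i
    · subst hi; rw [Function.update_self]; exact hdN j
    · rw [Function.update_of_ne hi]; exact hdi i' j hi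
  · by_cases hi : i' = i
    · subst hi; rw [Function.update_self]; exact Disjoint.mono_left hNi (h.bN _)
    · rw [Function.update_of_ne hi]; exact h.bN i'
  · exact Disjoint.mono_left (hMN j) (Set.disjoint_union_left.2 ⟨h.bM j, h.bN i⟩)
  · by_cases hi : i' = i
    · subst hi; rw [Function.update_self]; exact ht j
    · rw [Function.update_of_ne hi]; exact (h.t i' j).mono le_rfl (hMM j)
  · by_cases hi : (0 : Fin 3) = i
    · subst hi; rw [Function.update_self]; exact hr 0 h.x0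
    · rw [Function.update_of_ne hi]; exact h.x0
  · by_cases hi : (0 : Fin 3) = i
    · subst hi; rw [Function.update_self]; exact hr 1 h.x1
    · rw [Function.update_of_ne hi]; exact h.x1
  · by_cases hi : (1 : Fin 3) = i
    · subst hi; rw [Function.update_self]; exact hr 2 h.x2
    · rw [Function.update_of_ne hi]; exact h.x2
  · by_cases hi : (2 : Fin 3) = i
    · subst hi; rw [Function.update_self]; exact hr 3 h.x3
    · rw [Function.update_of_ne hi]; exact h.x3

/-- `(N, M)` with the largest `M 0 ∪ M 1` above `M₀` -/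
def Mx (G : SimpleGraph V) (B : Set V) (x : Fin 4 → V) (M₀ : Fin 2 → Set V) (N : Fin 3 → Set V)
    (M : Fin 2 → Set V) : Prop :=
  St G B x N M ∧ (∀ j, M₀ j ⊆ M j) ∧
    ∀ (N' : Fin 3 → Set V) (M' : Fin 2 → Set V), St G B x N' M' → (∀ j, M j ⊆ M' j) →
      ∀ j, M' j ⊆ M j

theorem exists_mx [Finite V] {M₀ : Fin 2 → Set V} (h : St G B x N M₀) :
    ∃ N' M', Mx G B x M₀ N' M' := by
  classical
  have hb : BddAbove {n | ∃ N' M', St G B x N' M' ∧ (∀ j, M₀ j ⊆ M' j) ∧
      (M' 0).ncard + (M' 1).ncard = n} := by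
    refine ⟨Nat.card V + Nat.card V, ?_⟩
    rintro n ⟨N', M', -, -, rfl⟩
    have h0 := Set.ncard_le_card (M' 0)
    have h1 := Set.ncard_le_card (M' 1)
    omega
  have hne : {n | ∃ N' M', St G B x N' M' ∧ (∀ j, M₀ j ⊆ M' j) ∧
      (M' 0).ncard + (M' 1).ncard = n}.Nonempty := ⟨_, N, M₀, h, fun _ => le_rfl, rfl⟩
  obtain ⟨N', M', h1, h2, h3⟩ := Nat.sSup_mem hne hb
  refine ⟨N', M', h1, h2, fun N'' M'' h4 h5 => ?_⟩
  have h6 : (M'' 0).ncard + (M'' 1).ncard ≤ (M' 0).ncard + (M' 1).ncard := by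
    rw [h3]
    exact le_csSup hb ⟨N'', M'', h4, fun j => (h2 j).trans (h5 j), rfl⟩
  have h7 := Set.ncard_le_ncard (h5 0) (Set.toFinite _)
  have h8 := Set.ncard_le_ncard (h5 1) (Set.toFinite _)
  intro j
  fin_cases j
  · exact (Set.eq_of_subset_of_ncard_le (h5 0) (by omega) (Set.toFinite _)).ge
  · exact (Set.eq_of_subset_of_ncard_le (h5 1) (by omega) (Set.toFinite _)).ge

/-- the labels: root, `M 0`, `M 1` -/
def lab (G : SimpleGraph V) (x : Fin 4 → V) (M : Fin 2 → Set V) : Fin 3 → V → Prop :=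
  ![fun v => ∃ a, x a = v, fun v => ∃ u ∈ M 0, G.Adj v u, fun v => ∃ u ∈ M 1, G.Adj v u]

theorem lab_M (j : Fin 2) (v : V) : lab G x M j.succ v ↔ ∃ u ∈ M j, G.Adj v u := by
  fin_cases j <;> rfl

theorem lab_root (v : V) : lab G x M 0 v ↔ ∃ a, x a = v := Iff.rfl

theorem heavy_M {P : Set V} (h : Heavy (lab G x M) P) : ∃ j : Fin 2, Tch G P (M j) := by
  obtain ⟨a, b, hab, ha, hb⟩ := h
  have key : ∀ c : Fin 3, c ≠ 0 → (∃ v ∈ P, lab G x M c v) → ∃ j : Fin 2, Tch G P (M j) := by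
    intro c hc hcv
    obtain ⟨j, rfl⟩ := Fin.exists_succ_eq_of_ne_zero hc
    obtain ⟨v, hv, h⟩ := hcv
    obtain ⟨u, hu, huv⟩ := (lab_M j v).1 h
    exact ⟨j, v, hv, u, hu, huv⟩
  by_cases h0 : a = 0
  · exact key b (fun h => hab (h0.trans h.symm)) hb
  · exact key a h0 ha

theorem heavy_noroot {P : Set V} (h : Heavy (lab G x M) P) (hr : ∀ a, x a ∉ P) (j : Fin 2) :
    Tch G P (M j) := by
  obtain ⟨a, b, hab, ha, hb⟩ := h
  have h0 : ∀ c : Fin 3, (∃ v ∈ P, lab G x M c v) → c ≠ 0 := by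
    rintro c ⟨v, hv, hc⟩ rfl
    obtain ⟨a, rfl⟩ := (lab_root v).1 hc
    exact hr a hv
  have key : ∀ c : Fin 3, (∃ v ∈ P, lab G x M c v) → c = j.succ → Tch G P (M j) := by
    rintro c ⟨v, hv, hc⟩ rfl
    obtain ⟨u, hu, huv⟩ := (lab_M j v).1 hc
    exact ⟨v, hv, u, hu, huv⟩
  have dec : ∀ (j : Fin 2) (a b : Fin 3), a ≠ b → a ≠ 0 → b ≠ 0 → a = j.succ ∨ b = j.succ := by
    decide
  have hc : a = j.succ ∨ b = j.succ := dec j a b hab (h0 a ha) (h0 b hb)
  rcases hc with hc | hc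
  · exact key a ha hc
  · exact key b hb hc

theorem disjM (h : St G B x N M) {a b : Fin 2} (hab : a ≠ b) : Disjoint (M a) (M b) := by
  have dec : ∀ a b : Fin 2, a ≠ b → (a = 0 ∧ b = 1) ∨ (a = 1 ∧ b = 0) := by decide
  rcases dec a b hab with ⟨rfl, rfl⟩ | ⟨rfl, rfl⟩
  · exact h.dM
  · exact h.dM.symm

theorem mkcross (h : St G B x N M) {P Q : Set V} (hP : Con G P) (hQ : Con G Q)
    (hd : Disjoint P Q) (hPN : P ⊆ N 0) (hQN : Q ⊆ N 0) (h0 : x 0 ∈ P) (h1 : x 1 ∈ Q)
    (hPt : ∃ j, Tch G P (M j)) (hQt : ∃ j, Tch G Q (M j))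
    (hall : ∀ j, Tch G P (M j) ∨ Tch G Q (M j)) : Cross G B x := by
  obtain ⟨j, j', hjj, hj, hj'⟩ : ∃ j j' : Fin 2, j ≠ j' ∧ Tch G P (M j) ∧ Tch G Q (M j') := by
    obtain ⟨a, ha⟩ := hPt
    obtain ⟨b, hb⟩ := hQt
    by_cases hab : a = b
    · subst hab
      have dec : ∀ a : Fin 2, ∃ c, c ≠ a := by decide
      obtain ⟨c, hc⟩ := dec a
      rcases hall c with h' | h'
      · exact ⟨c, a, hc, h', hb⟩
      · exact ⟨a, c, hc.symm, ha, h'⟩
    · exact ⟨a, b, hab, ha, hb⟩
  have hN01 : Disjoint (N 0) (N 1) := h.dN 0 1 (by decide)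
  have hN02 : Disjoint (N 0) (N 2) := h.dN 0 2 (by decide)
  have hN12 : Disjoint (N 1) (N 2) := h.dN 1 2 (by decide)
  refine ⟨P ∪ M j ∪ N 1, Q ∪ M j' ∪ N 2, ?_, ?_, ?_, ?_, ?_, ?_, ?_, ?_, ?_⟩
  · exact con_union (con_union hP (h.cM j) hj) (h.cN 1)
      ((h.t 1 j).symm.mono Set.subset_union_right le_rfl)
  · exact con_union (con_union hQ (h.cM j') hj') (h.cN 2)
      ((h.t 2 j').symm.mono Set.subset_union_right le_rfl)
  · simp only [Set.disjoint_union_left, Set.disjoint_union_right]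
    refine ⟨⟨⟨⟨hd, (Disjoint.mono_left hQN (h.dNM 0 j)).symm⟩, (Disjoint.mono_left hQN hN01).symm⟩,
      ⟨Disjoint.mono_left hPN (h.dNM 0 j'), disjM h hjj⟩, h.dNM 1 j'⟩,
      ⟨Disjoint.mono_left hPN hN02, (h.dNM 2 j).symm⟩, hN12⟩
  · simp only [Set.disjoint_union_left]
    exact ⟨⟨Disjoint.mono_left hPN (h.bN 0), h.bM j⟩, h.bN 1⟩
  · simp only [Set.disjoint_union_left]
    exact ⟨⟨Disjoint.mono_left hQN (h.bN 0), h.bM j'⟩, h.bN 2⟩
  · exact Or.inl (Or.inl h0)
  · exact Or.inr h.x2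
  · exact Or.inl (Or.inl h1)
  · exact Or.inr h.x3

/-- a set `K` moved from `N i` to `M j` -/
theorem shift [Finite V] {M₀ : Fin 2 → Set V} (h : Mx G B x M₀ N M) (i : Fin 3) (j : Fin 2)
    {P K : Set V} (hPK : P ∪ K = N i) (hd : Disjoint P K) (hP : Con G P) (hK : Con G K)
    (hr : ∀ a, x a ∉ K) (hKM : Tch G K (M j)) (hPM : ∀ j', j' ≠ j → Tch G P (M j')) : False := by
  classical
  obtain ⟨hs, -, hmax⟩ := h
  have hKN : K ⊆ N i := hPK ▸ Set.subset_union_right
  have hPN : P ⊆ N i := hPK ▸ Set.subset_union_left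
  have hKMd : ∀ j', Disjoint K (M j') := fun j' => Disjoint.mono_left hKN (hs.dNM i j')
  have hself : Function.update M j (M j ∪ K) j = M j ∪ K := Function.update_self ..
  have hoth : ∀ j', j' ≠ j → Function.update M j (M j ∪ K) j' = M j' :=
    fun j' hj => Function.update_of_ne hj ..
  have hMM : ∀ j', M j' ⊆ Function.update M j (M j ∪ K) j' := by
    intro j'
    by_cases hj : j' = j
    · subst hj; rw [hself]; exact Set.subset_union_left
    · rw [hoth j' hj]
  have hPKt : Tch G P K :=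
    Vale.Agent.P235.K5.W.H531.tch_of_split (hs.cN i) hPK (con_nonempty hP) (con_nonempty hK) hd
  have hst : St G B x (Function.update N i P) (Function.update M j (M j ∪ K)) := by
    refine St.move hs i hP hPN (fun a ha => ?_) (fun j' => ?_) hMM (fun j' => ?_) ?_
      (fun j' => ?_) (fun j' => ?_)
    · rw [← hPK] at ha
      exact ha.resolve_right (hr a)
    · by_cases hj : j' = j
      · subst hj; rw [hself]; exact con_union (hs.cM _) hK hKM.symm
      · rw [hoth j' hj]; exact hs.cM _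
    · by_cases hj : j' = j
      · subst hj; rw [hself]; exact Set.union_subset_union_right _ hKN
      · rw [hoth j' hj]; exact Set.subset_union_left
    · have dec : j = 0 ∨ j = 1 := by
        have : ∀ j : Fin 2, j = 0 ∨ j = 1 := by decide
        exact this j
      rcases dec with rfl | rfl
      · rw [hself, hoth 1 (by decide)]
        exact Set.disjoint_union_left.2 ⟨hs.dM, hKMd 1⟩
      · rw [hself, hoth 0 (by decide)]
        exact Set.disjoint_union_right.2 ⟨hs.dM, (hKMd 0).symm⟩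
    · by_cases hj : j' = j
      · subst hj; rw [hself]
        exact Set.disjoint_union_right.2 ⟨Disjoint.mono_left hPN (hs.dNM i _), hd⟩
      · rw [hoth j' hj]; exact Disjoint.mono_left hPN (hs.dNM i _)
    · by_cases hj : j' = j
      · subst hj; rw [hself]; exact hPKt.mono le_rfl Set.subset_union_right
      · rw [hoth j' hj]; exact hPM j' hj
  obtain ⟨v, hv⟩ := con_nonempty hK
  have h1 := hmax _ _ hst hMM j (by rw [hself]; exact Or.inr hv : v ∈ _)
  exact Set.disjoint_left.1 (hKMd j) hv h1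

theorem gate [Finite V] {M₀ : Fin 2 → Set V} (h : Mx G B x M₀ N M) (hno : ¬ Cross G B x)
    (i : Fin 3) : ∃ g ∈ N i, ∀ v ∈ N i, ∀ j, (∃ u ∈ M j, G.Adj v u) → v = g := by
  classical
  have hmx := h
  obtain ⟨hs, -, hmax⟩ := h
  have hx : ∀ a : Fin 4, x a ∈ N ((![0, 0, 1, 2] : Fin 4 → Fin 3) a) := by
    intro a
    fin_cases a
    · exact hs.x0
    · exact hs.x1
    · exact hs.x2
    · exact hs.x3
  have hidx : ∀ a, x a ∈ N i → (![0, 0, 1, 2] : Fin 4 → Fin 3) a = i := by
    intro a ha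
    by_contra hne
    exact Set.disjoint_left.1 (hs.dN _ _ hne) (hx a) ha
  have hT : ∀ c, ∃ v ∈ N i, lab G x M c v := by
    intro c
    by_cases hc : c = 0
    · subst hc
      have : ∀ i : Fin 3, ∃ a : Fin 4, (![0, 0, 1, 2] : Fin 4 → Fin 3) a = i := by decide
      obtain ⟨a, ha⟩ := this i
      exact ⟨x a, ha ▸ hx a, (lab_root _).2 ⟨a, rfl⟩⟩
    · obtain ⟨j, rfl⟩ := Fin.exists_succ_eq_of_ne_zero hc
      obtain ⟨v, hv, u, hu, huv⟩ := hs.t i j
      exact ⟨v, hv, (lab_M j v).2 ⟨u, hu, huv⟩⟩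
  rcases tricho (lab G x M) (cn_iff.2 (hs.cN i)) hT with
    ⟨g, hg, hhub⟩ | ⟨P, Q, hPQ, hdPQ, hP, hQ, hhP, hhQ⟩ | ⟨U, hU, hUc, hUd, hUa, hUl, hUo⟩
  · refine ⟨g, hg, fun v hv j hvu => ?_⟩
    by_contra hne
    have hvl : lab G x M j.succ v := (lab_M j v).2 hvu
    obtain ⟨K, hvK, hK, hKc, hKn, hKr⟩ := exists_comp (C := {v}) (cn_iff.2 (hs.cN i)) hg
      (Vale.Agent.P235.K5.H707.Cn.singleton v) (by
        rintro w rfl
        exact ⟨hv, hne⟩)
    have hvK' : v ∈ K := hvK rfl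
    have hnot : ¬ Heavy (lab G x M) K := hhub K hK hKc
    have hone : ∀ c, c ≠ j.succ → ∀ w ∈ K, ¬ lab G x M c w := fun c hc w hw hl =>
      hnot ⟨c, j.succ, hc, ⟨w, hw, hl⟩, ⟨v, hvK', hvl⟩⟩
    have hKN : K ⊆ N i := fun w hw => (hK hw).1
    refine shift hmx i j (P := N i \ K) (K := K) ?_ Set.disjoint_sdiff_left (cn_iff.1 hKr)
      (cn_iff.1 hKc) (fun a ha => hone 0 (Fin.succ_ne_zero j).symm _ ha
        ((lab_root _).2 ⟨a, rfl⟩)) ?_ ?_
    · exact Set.sdiff_union_of_subset hKN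
    · obtain ⟨u, hu, huv⟩ := hvu
      exact ⟨v, hvK', u, hu, huv⟩
    · intro j' hj
      obtain ⟨w, hw, u, hu, hwu⟩ := hs.t i j'
      exact ⟨w, ⟨hw, fun hwK => hone j'.succ (fun e => hj (Fin.succ_injective _ e)) w hwK
        ((lab_M j' w).2 ⟨u, hu, hwu⟩)⟩, u, hu, hwu⟩
  · exfalso
    have hother : ∀ j : Fin 2, ∃ j', j' ≠ j := by decide
    have huniq : ∀ j j' j'' : Fin 2, j' ≠ j → j'' ≠ j' → j'' = j := by decide
    have key : ∀ P Q : Set V, P ∪ Q = N i → Disjoint P Q → Cn G P → Cn G Q →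
        Heavy (lab G x M) P → Heavy (lab G x M) Q → (∀ a, x a ∉ Q) → False := by
      intro P Q hPQ hdPQ hP hQ hhP hhQ hr
      obtain ⟨j, hj⟩ := heavy_M hhP
      obtain ⟨j', hj'⟩ := hother j
      refine shift hmx i j' hPQ hdPQ (cn_iff.1 hP) (cn_iff.1 hQ) hr (heavy_noroot hhQ hr j') ?_
      intro j'' hj''
      rw [huniq j j' j'' hj' hj'']
      exact hj
    by_cases hrQ : ∀ a, x a ∉ Q
    · exact key P Q hPQ hdPQ hP hQ hhP hhQ hrQ
    · by_cases hrP : ∀ a, x a ∉ P
      · exact key Q P (by rw [Set.union_comm]; exact hPQ) hdPQ.symm hQ hP hhQ hhP hrP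
      · push Not at hrQ hrP
        obtain ⟨b, hb⟩ := hrQ
        obtain ⟨a, ha⟩ := hrP
        have hPN : P ⊆ N i := hPQ ▸ Set.subset_union_left
        have hQN : Q ⊆ N i := hPQ ▸ Set.subset_union_right
        have h1 := hidx a (hPN ha)
        have h2 := hidx b (hQN hb)
        have hab : a ≠ b := by
          rintro rfl
          exact Set.disjoint_left.1 hdPQ ha hb
        have dec : ∀ (a b : Fin 4) (i : Fin 3), (![0, 0, 1, 2] : Fin 4 → Fin 3) a = i →
            (![0, 0, 1, 2] : Fin 4 → Fin 3) b = i → a ≠ b →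
            i = 0 ∧ ((a = 0 ∧ b = 1) ∨ (a = 1 ∧ b = 0)) := by decide
        obtain ⟨rfl, h3⟩ := dec a b i h1 h2 hab
        have hall : ∀ j, Tch G P (M j) ∨ Tch G Q (M j) := by
          intro j
          have := hs.t 0 j
          rw [← hPQ] at this
          exact Vale.Agent.P235.K5.W.H531.tch_union_left.1 this
        rcases h3 with ⟨rfl, rfl⟩ | ⟨rfl, rfl⟩
        · exact hno (mkcross hs (cn_iff.1 hP) (cn_iff.1 hQ) hdPQ hPN hQN ha hb (heavy_M hhP)
            (heavy_M hhQ) hall)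
        · exact hno (mkcross hs (cn_iff.1 hQ) (cn_iff.1 hP) hdPQ.symm hQN hPN hb ha (heavy_M hhQ)
            (heavy_M hhP) (fun j => (hall j).symm))
  · exfalso
    have hUN : ∀ c, U c ⊆ N i := fun c v hv => (hU v).2 ⟨c, hv⟩
    have hMM : ∀ j, M j ⊆ (![M 0 ∪ U 1, M 1 ∪ U 2] : Fin 2 → Set V) j := by
      intro j
      fin_cases j
      · exact Set.subset_union_left
      · exact Set.subset_union_left
    have hst : St G B x (Function.update N i (U 0)) ![M 0 ∪ U 1, M 1 ∪ U 2] := by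
      refine St.move hs i (cn_iff.1 (hUc 0)) (hUN 0) (fun a ha => ?_) (fun j => ?_) hMM
        (fun j => ?_) ?_ (fun j => ?_) (fun j => ?_)
      · obtain ⟨c, hc⟩ := (hU _).1 ha
        by_cases h0 : c = 0
        · subst h0; exact hc
        · exact absurd ((lab_root _).2 ⟨a, rfl⟩) (hUo c 0 h0 _ hc)
      · fin_cases j
        · obtain ⟨v, hv, hl⟩ := hUl 1
          obtain ⟨u, hu, huv⟩ := (lab_M 0 v).1 hl
          exact con_union (hs.cM 0) (cn_iff.1 (hUc 1)) ⟨u, hu, v, hv, huv.symm⟩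
        · obtain ⟨v, hv, hl⟩ := hUl 2
          obtain ⟨u, hu, huv⟩ := (lab_M 1 v).1 hl
          exact con_union (hs.cM 1) (cn_iff.1 (hUc 2)) ⟨u, hu, v, hv, huv.symm⟩
      · fin_cases j
        · exact Set.union_subset_union_right _ (hUN 1)
        · exact Set.union_subset_union_right _ (hUN 2)
      · show Disjoint (M 0 ∪ U 1) (M 1 ∪ U 2)
        simp only [Set.disjoint_union_left, Set.disjoint_union_right]
        exact ⟨⟨hs.dM, Disjoint.mono_left (hUN 1) (hs.dNM i 1)⟩,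
          (Disjoint.mono_left (hUN 2) (hs.dNM i 0)).symm, hUd 1 2 (by decide)⟩
      · fin_cases j
        · exact Set.disjoint_union_right.2 ⟨Disjoint.mono_left (hUN 0) (hs.dNM i 0),
            hUd 0 1 (by decide)⟩
        · exact Set.disjoint_union_right.2 ⟨Disjoint.mono_left (hUN 0) (hs.dNM i 1),
            hUd 0 2 (by decide)⟩
      · fin_cases j
        · obtain ⟨u, hu, v, hv, huv⟩ := hUa 0 1 (by decide)
          exact ⟨u, hu, v, Or.inr hv, huv⟩
        · obtain ⟨u, hu, v, hv, huv⟩ := hUa 0 2 (by decide)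
          exact ⟨u, hu, v, Or.inr hv, huv⟩
    obtain ⟨v, hv⟩ := (hUc 1).1
    have h1 : v ∈ M 0 := hmax _ _ hst hMM 0 (Or.inr hv)
    exact Set.disjoint_left.1 (hs.dNM i 0) (hUN 1 hv) h1

/-- **[X1]** -/
theorem cross : CrossStmt := by
  classical
  intro V _ G B x N M h
  by_cases hno : Cross G B x
  · exact Or.inl hno
  right
  obtain ⟨N', M', hmx⟩ := exists_mx h
  have hg : ∀ i, ∃ g ∈ N' i, ∀ v ∈ N' i, ∀ j, (∃ u ∈ M' j, G.Adj v u) → v = g :=
    fun i => gate hmx hno i
  choose g hgN hg using hg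
  obtain ⟨hs, hM, hmax⟩ := hmx
  refine ⟨Set.range g, M' 0 ∪ M' 1, ?_, Set.union_subset_union (hM 0) (hM 1), ?_, ?_, ?_, ?_⟩
  · have := Set.ncard_image_le (f := g) (s := Set.univ) Set.finite_univ
    rw [Set.image_univ] at this
    refine this.trans ?_
    rw [Set.ncard_univ, Nat.card_eq_fintype_card, Fintype.card_fin]
  · exact Set.disjoint_union_left.2 ⟨hs.bM 0, hs.bM 1⟩
  · rw [Set.disjoint_left]
    rintro v ⟨i, rfl⟩ hB
    exact Set.disjoint_left.1 (hs.bN i) (hgN i) hB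
  · intro a ha
    have hx : x a ∈ N' ((![0, 0, 1, 2] : Fin 4 → Fin 3) a) := by
      fin_cases a
      · exact hs.x0
      · exact hs.x1
      · exact hs.x2
      · exact hs.x3
    rcases ha with ha | ha
    · exact Set.disjoint_left.1 (hs.dNM _ 0) hx ha
    · exact Set.disjoint_left.1 (hs.dNM _ 1) hx ha
  · rintro v ⟨hvD, u, huD, huv⟩
    by_cases hvB : v ∈ B
    · exact Or.inr hvB
    left
    obtain ⟨j, huj⟩ : ∃ j, u ∈ M' j := by
      rcases huD with h' | h'
      · exact ⟨0, h'⟩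
      · exact ⟨1, h'⟩
    have hvM : ∀ j, v ∉ M' j := by
      intro j hj
      fin_cases j
      · exact hvD (Or.inl hj)
      · exact hvD (Or.inr hj)
    by_cases hvN : ∃ i, v ∈ N' i
    · obtain ⟨i, hi⟩ := hvN
      exact ⟨i, (hg i v hi j ⟨u, huj, huv.symm⟩).symm⟩
    · exfalso
      push Not at hvN
      have hself : Function.update M' j (M' j ∪ {v}) j = M' j ∪ {v} := Function.update_self ..
      have hoth : ∀ j', j' ≠ j → Function.update M' j (M' j ∪ {v}) j' = M' j' :=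
        fun j' hj => Function.update_of_ne hj ..
      have hMM : ∀ j', M' j' ⊆ Function.update M' j (M' j ∪ {v}) j' := by
        intro j'
        by_cases hj : j' = j
        · subst hj; rw [hself]; exact Set.subset_union_left
        · rw [hoth j' hj]
      have hsub : ∀ j', Function.update M' j (M' j ∪ {v}) j' ⊆ M' j' ∪ {v} := by
        intro j'
        by_cases hj : j' = j
        · subst hj; rw [hself]
        · rw [hoth j' hj]; exact Set.subset_union_left
      have hst : St G B x N' (Function.update M' j (M' j ∪ {v})) := by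
        refine ⟨hs.cN, fun j' => ?_, hs.dN, ?_, fun i j' => ?_, hs.bN, fun j' => ?_,
          fun i j' => (hs.t i j').mono le_rfl (hMM j'), hs.x0, hs.x1, hs.x2, hs.x3⟩
        · by_cases hj : j' = j
          · subst hj; rw [hself]
            exact con_union (hs.cM _) (conn_single G v) ⟨u, huj, v, rfl, huv⟩
          · rw [hoth j' hj]; exact hs.cM _
        · have dec : j = 0 ∨ j = 1 := by
            have : ∀ j : Fin 2, j = 0 ∨ j = 1 := by decide
            exact this j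
          rcases dec with rfl | rfl
          · rw [hself, hoth 1 (by decide)]
            exact Set.disjoint_union_left.2 ⟨hs.dM, Set.disjoint_singleton_left.2 (hvM 1)⟩
          · rw [hself, hoth 0 (by decide)]
            exact Set.disjoint_union_right.2 ⟨hs.dM, Set.disjoint_singleton_right.2 (hvM 0)⟩
        · exact Disjoint.mono_right (hsub j')
            (Set.disjoint_union_right.2 ⟨hs.dNM i j', Set.disjoint_singleton_right.2 (hvN i)⟩)
        · exact Disjoint.mono_left (hsub j')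
            (Set.disjoint_union_left.2 ⟨hs.bM j', Set.disjoint_singleton_left.2 hvB⟩)
      have h1 := hmax _ _ hst hMM j (by rw [hself]; exact Or.inr rfl : v ∈ _)
      exact hvM j h1

end Vale.Agent.P235.XC.H531
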