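import Vale.Agent.P235.XC.Defs
import Vale.Agent.P235.XC.H531.X1
import Vale.Agent.P235.XC.H831.Cross
import Vale.Agent.P235.XC.H76.Blocks
import Vale.Agent.P235.XC.H283.Unc8
import Vale.Agent.P235.XC.H666.Geo
import Vale.Agent.P235.XC.H666.Ind
import Vale.Agent.P235.XC.H456.Sep
import Vale.Agent.P235.H830.Asm

/-!
P235, line XC [X9] (helper531): the core: a 3-connected graph without a 3-separation that is not
near-trivial and with a large minor `Q R` has the minor `TX r`.
-/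

set_option autoImplicit false

namespace Vale.Agent.P235.XC.H531

open SimpleGraph Vale.Agent.P235.H134 Vale.Agent.P235.H56 Vale.Agent.P235.K5
open Vale.Agent.P235.H830 (nbr UU mem_UU sub_UU UU_mono UU_conn UU_disj UU_touch ncard_meet
  ncard_UU side)
open Vale.Agent.P235.K5.W.H531 (Con Tch con_union tch_of_split)

/-- a connected set which meets `D` and is not inside `D` has a vertex in `nbr D` -/
theorem meet_nbr {V : Type} {G : SimpleGraph V} {W D : Set V} (hW : Con G W)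
    (h1 : (W ∩ D).Nonempty) (h2 : (W \ D).Nonempty) : (W ∩ nbr G D).Nonempty := by
  obtain ⟨u, hu, v, hv, huv⟩ := tch_of_split hW (Set.inter_union_sdiff W D) h1 h2
    (Set.disjoint_left.2 fun _ h h' => h'.2 h.2)
  exact ⟨v, hv.1, hv.2, u, hu.2, huv⟩

theorem core_of (h1 : CrossStmt) (h4 : SepStmt) (h5 : CrossTXStmt) (hG : GeoStmt)
    (hB : BlocksStmt) (h6 : IndStmt) (h7 : Unc8Stmt) : CoreStmt := by
  classical
  intro r hr V _ G h3 hQ4 hm
  obtain ⟨φ, hc, hd, ha⟩ := hm
  by_contra hno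
  set Y : Pos r → Set V := fun x => φ (Sum.inr x) with hYdef
  set A : Fin 3 → Set V := fun i => φ (Sum.inl (Sum.inl i)) with hAdef
  set M : Fin 2 → Set V := fun j => φ (Sum.inl (Sum.inr j)) with hMdef
  have hYc : ∀ x, (G.induce (Y x)).Connected := fun x => hc _
  have hYd : ∀ x y, x ≠ y → Disjoint (Y x) (Y y) := fun x y h => hd _ _ (by simpa using h)
  have hYa : ∀ x y, (grid (RX r)).Adj x y → ∃ u ∈ Y x, ∃ v ∈ Y y, G.Adj u v := fun x y h =>
    ha (Sum.inr x) (Sum.inr y) (by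
      refine (SimpleGraph.fromRel_adj _ _ _).2 ⟨by simpa using h.ne, Or.inl ?_⟩
      exact Or.inr (Or.inr (Or.inr ⟨x, y, h, rfl, rfl⟩)))
  have hYne : ∀ x, (Y x).Nonempty := fun x => by
    obtain ⟨v⟩ := (hYc x).nonempty
    exact ⟨v.1, v.2⟩
  have hAM : ∀ i j, Tch G (A i) (M j) := fun i j =>
    ha (Sum.inl (Sum.inl i)) (Sum.inl (Sum.inr j)) (by
      refine (SimpleGraph.fromRel_adj _ _ _).2 ⟨by simp, Or.inl ?_⟩
      exact Or.inr (Or.inl ⟨i, j, rfl, rfl⟩))
  have hAS : ∀ i, ∀ x ∈ side (RX r) i, Tch G (A i) (Y x) := fun i x hx =>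
    ha (Sum.inl (Sum.inl i)) (Sum.inr x) (by
      refine (SimpleGraph.fromRel_adj _ _ _).2 ⟨by simp, Or.inl ?_⟩
      exact Or.inr (Or.inr (Or.inl ⟨i, x, hx, rfl, rfl⟩)))
  have hAY : ∀ i Z, Disjoint (A i) (UU Y Z) := fun i Z => by
    rw [Set.disjoint_left]
    intro v hv hv'
    obtain ⟨x, -, hx⟩ := mem_UU.1 hv'
    exact Set.disjoint_left.1 (hd (Sum.inl (Sum.inl i)) (Sum.inr x) (by simp)) hv hx
  have hMY : ∀ j Z, Disjoint (M j) (UU Y Z) := fun j Z => by
    rw [Set.disjoint_left]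
    intro v hv hv'
    obtain ⟨x, -, hx⟩ := mem_UU.1 hv'
    exact Set.disjoint_left.1 (hd (Sum.inl (Sum.inr j)) (Sum.inr x) (by simp)) hv hx
  have hAA : ∀ i j, i ≠ j → Disjoint (A i) (A j) := fun i j h => hd _ _ (by simpa using h)
  have hAMd : ∀ i j, Disjoint (A i) (M j) := fun i j => hd _ _ (by simp)
  have hMM : Disjoint (M 0) (M 1) := hd _ _ (by simp)
  obtain ⟨hb1, hb2, hb3⟩ := hB r hr
  have key : ∀ k : Fin 64, ∃ (S D : Set V) (v : Fin 4 → V), S.ncard ≤ 3 ∧ M 0 ∪ M 1 ⊆ D ∧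
      Disjoint D (UU Y (blkX r k)) ∧ Disjoint S (UU Y (blkX r k)) ∧ (∀ i, v i ∉ D) ∧
      nbr G D ⊆ S ∪ UU Y (blkX r k) ∧ ∀ i, ∃ x, rootX r k i x ∧ v i ∈ Y x := by
    intro k
    obtain ⟨x, inn, hg⟩ := hG r hr k
    have hv : ∀ i, ∃ v, v ∈ Y (x i) ∧ ∃ u ∈ UU Y (arcX r k i), G.Adj v u := by
      intro i
      obtain ⟨p, hp, hxp⟩ := hg.arc_root i
      obtain ⟨u, hu, w, hw, huw⟩ := hYa _ _ hxp
      exact ⟨u, hu, w, sub_UU hp hw, huw⟩
    choose v hvY hvu using hv
    have hL : ∀ i, Con G (UU Y (linX r k i)) := fun i => UU_conn hYc hYa (hg.lin_conn i)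
    obtain ⟨⟨p0, hp0, hp0'⟩, ⟨p1, hp1, hp1'⟩, ⟨p2, hp2, hp2'⟩, ⟨p3, hp3, hp3'⟩⟩ := hg.lin_end
    have t0 : Tch G (A 2) (UU Y (linX r k 0)) :=
      (hAS 2 p0 (Or.inr (Or.inr ⟨rfl, Or.inr hp0'⟩))).mono (subset_refl _) (sub_UU hp0)
    have t1 : Tch G (A 2) (UU Y (linX r k 1)) :=
      (hAS 2 p1 (Or.inr (Or.inr ⟨rfl, Or.inl hp1'⟩))).mono (subset_refl _) (sub_UU hp1)
    have t2 : Tch G (A 1) (UU Y (linX r k 2)) :=
      (hAS 1 p2 (Or.inr (Or.inl ⟨rfl, hp2'⟩))).mono (subset_refl _) (sub_UU hp2)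
    have t3 : Tch G (A 0) (UU Y (linX r k 3)) :=
      (hAS 0 p3 (Or.inl ⟨rfl, hp3'⟩)).mono (subset_refl _) (sub_UU hp3)
    have hLd : ∀ i j, i ≠ j → Disjoint (UU Y (linX r k i)) (UU Y (linX r k j)) :=
      fun i j h => UU_disj hYd (hg.lin_disj i j h)
    have hLB : ∀ i, Disjoint (UU Y (linX r k i)) (UU Y (blkX r k)) :=
      fun i => UU_disj hYd (hg.lin_blk i k)
    set N : Fin 3 → Set V := ![A 2 ∪ UU Y (linX r k 0) ∪ UU Y (linX r k 1),
      A 1 ∪ UU Y (linX r k 2), A 0 ∪ UU Y (linX r k 3)] with hN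
    have hSt : St G (UU Y (blkX r k)) v N M := by
      refine ⟨?_, fun j => hc _, ?_, hMM, ?_, ?_, fun j => hMY j _, ?_, ?_, ?_, ?_, ?_⟩
      · intro i
        fin_cases i
        · exact con_union (con_union (hc _) (hL 0) t0) (hL 1)
            (t1.mono Set.subset_union_left (subset_refl _))
        · exact con_union (hc _) (hL 2) t2
        · exact con_union (hc _) (hL 3) t3
      · have e01 : Disjoint (N 0) (N 1) := by
          refine Set.disjoint_union_left.2 ⟨Set.disjoint_union_left.2 ⟨?_, ?_⟩, ?_⟩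
          · exact Set.disjoint_union_right.2 ⟨hAA _ _ (by decide), hAY _ _⟩
          · exact Set.disjoint_union_right.2 ⟨(hAY _ _).symm, hLd _ _ (by decide)⟩
          · exact Set.disjoint_union_right.2 ⟨(hAY _ _).symm, hLd _ _ (by decide)⟩
        have e02 : Disjoint (N 0) (N 2) := by
          refine Set.disjoint_union_left.2 ⟨Set.disjoint_union_left.2 ⟨?_, ?_⟩, ?_⟩
          · exact Set.disjoint_union_right.2 ⟨hAA _ _ (by decide), hAY _ _⟩
          · exact Set.disjoint_union_right.2 ⟨(hAY _ _).symm, hLd _ _ (by decide)⟩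
          · exact Set.disjoint_union_right.2 ⟨(hAY _ _).symm, hLd _ _ (by decide)⟩
        have e12 : Disjoint (N 1) (N 2) := by
          refine Set.disjoint_union_left.2 ⟨?_, ?_⟩
          · exact Set.disjoint_union_right.2 ⟨hAA _ _ (by decide), hAY _ _⟩
          · exact Set.disjoint_union_right.2 ⟨(hAY _ _).symm, hLd _ _ (by decide)⟩
        intro i j hij
        fin_cases i <;> fin_cases j <;>
          first
          | exact absurd rfl hij
          | exact e01
          | exact e01.symm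
          | exact e02
          | exact e02.symm
          | exact e12
          | exact e12.symm
      · intro i j
        fin_cases i
        · exact Set.disjoint_union_left.2 ⟨Set.disjoint_union_left.2 ⟨hAMd _ _, (hMY _ _).symm⟩,
            (hMY _ _).symm⟩
        · exact Set.disjoint_union_left.2 ⟨hAMd _ _, (hMY _ _).symm⟩
        · exact Set.disjoint_union_left.2 ⟨hAMd _ _, (hMY _ _).symm⟩
      · intro i
        fin_cases i
        · exact Set.disjoint_union_left.2 ⟨Set.disjoint_union_left.2 ⟨hAY _ _, hLB _⟩, hLB _⟩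
        · exact Set.disjoint_union_left.2 ⟨hAY _ _, hLB _⟩
        · exact Set.disjoint_union_left.2 ⟨hAY _ _, hLB _⟩
      · intro i j
        fin_cases i
        · exact (hAM 2 j).mono (fun _ h => Or.inl (Or.inl h)) (subset_refl _)
        · exact (hAM 1 j).mono (fun _ h => Or.inl h) (subset_refl _)
        · exact (hAM 0 j).mono (fun _ h => Or.inl h) (subset_refl _)
      · exact Or.inl (Or.inr (sub_UU (hg.lin_root 0) (hvY 0)))
      · exact Or.inr (sub_UU (hg.lin_root 1) (hvY 1))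
      · exact Or.inr (sub_UU (hg.lin_root 2) (hvY 2))
      · exact Or.inr (sub_UU (hg.lin_root 3) (hvY 3))
    rcases h1 V G (UU Y (blkX r k)) v N M hSt with hcr | ⟨S, D, e1, e2, e3, e4, e5, e6⟩
    · exact absurd (h5 V G r k x inn Y v hr hg hYc hYd hYa hvu hcr) hno
    · exact ⟨S, D, v, e1, e2, e3, e4, e5, e6, fun i => ⟨x i, hg.root i, hvY i⟩⟩
  choose S D v hS hMD hDB hSB hvD hN hroot using key
  set T : Fin 64 → Set (Pos r) := fun k => {x | ¬ Disjoint (Y x) (S k)} with hT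
  have hTc : ∀ k, (T k).ncard ≤ 3 := fun k =>
    (ncard_meet (Y := Y) (Set.toFinite (S k)) (fun x _ y _ h => hYd x y h)
      (fun x hx => hx)).trans (hS k)
  obtain ⟨g, hg, hgf⟩ := h6 (fun k => {l | ¬ Disjoint (blkX r l) (T k)}) fun k =>
    (ncard_meet (Y := blkX r) (Set.toFinite (T k)) (fun x _ y _ h => hb2 x y h)
      (fun x hx => hx)).trans (hTc k)
  have hTk : ∀ k, Disjoint (T k) (blkX r k) := by
    intro k
    rw [Set.disjoint_left]
    intro x hx hxb
    obtain ⟨u, hu, huS⟩ := Set.not_disjoint_iff.1 hx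
    exact Set.disjoint_left.1 (hSB k) huS (sub_UU hxb hu)
  have hTl : ∀ a b, Disjoint (T (g a)) (blkX r (g b)) := by
    intro a b
    by_cases hab : a = b
    · subst hab; exact hTk _
    · by_contra h
      exact hgf a b hab fun h' => h h'.symm
  have hUS : ∀ (k : Fin 64) (Z : Set (Pos r)), Disjoint Z (T k) → Disjoint (UU Y Z) (S k) := by
    intro k Z h
    rw [Set.disjoint_left]
    intro u hu huS
    obtain ⟨x, hx, hux⟩ := mem_UU.1 hu
    exact Set.disjoint_left.1 h hx fun h' => Set.disjoint_left.1 h' hux huS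
  refine h7 V G (fun a => UU Y (blkX r (g a))) (fun a => S (g a)) (fun a => D (g a)) (M 0 ∪ M 1) h3
    hQ4 (fun a => hS _) (fun a b h => UU_disj hYd (hb2 _ _ fun h' => h (hg h')))
    (fun a b => (hUS _ _ (hTl a b).symm).symm) ?_ (fun a => hN _) (fun a => hMD _) ?_ ?_
  · intro a b
    by_cases hab : a = b
    · subst hab; exact hDB _
    · have hkl : g a ≠ g b := fun h => hab (hg h)
      obtain ⟨i, Z, z1, z2, -, z4, z5, z6⟩ := h4 r hr (g a) (g b) hkl (T (g a)) (hTc _) (hTl a b)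
      obtain ⟨x, hx, hvx⟩ := hroot (g a) i
      rw [Set.disjoint_left]
      intro u huD hub
      have hW : ((grid (RX r)).induce (Z ∪ blkX r (g b))).Connected :=
        induce_union_connected z1.preconnected (hb1 _).preconnected z4
      have hWB : Disjoint (Z ∪ blkX r (g b)) (blkX r (g a)) :=
        Set.disjoint_union_left.2 ⟨z5, hb2 _ _ hkl.symm⟩
      have hWT : Disjoint (Z ∪ blkX r (g b)) (T (g a)) :=
        Set.disjoint_union_left.2 ⟨z6, (hTl a b).symm⟩
      obtain ⟨w, hw, hwn⟩ := meet_nbr (D := D (g a)) (UU_conn hYc hYa hW)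
        ⟨u, UU_mono Set.subset_union_right hub, huD⟩
        ⟨v (g a) i, sub_UU (Set.mem_union_left _ (z2 x hx)) hvx, hvD _ _⟩
      rcases hN _ hwn with h | h
      · exact Set.disjoint_left.1 (hUS _ _ hWT) hw h
      · exact Set.disjoint_left.1 (UU_disj hYd hWB) hw h
  · have n0 : (M 0).Nonempty := by
      obtain ⟨u⟩ := (hc (Sum.inl (Sum.inr 0))).nonempty
      exact ⟨u.1, u.2⟩
    have n1 : (M 1).Nonempty := by
      obtain ⟨u⟩ := (hc (Sum.inl (Sum.inr 1))).nonempty
      exact ⟨u.1, u.2⟩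
    rw [Set.ncard_union_eq hMM (Set.toFinite _) (Set.toFinite _)]
    have := (Set.ncard_pos (Set.toFinite _)).2 n0
    have := (Set.ncard_pos (Set.toFinite _)).2 n1
    omega
  · intro a
    exact (hb3 _).trans (ncard_UU hYd hYne)

/-- **[X9]**, no hypothesis -/
theorem core : CoreStmt :=
  core_of cross H456S.sep H831.crossTX H666.geo H76.blocks H666.ind H283.unc8Stmt

end Vale.Agent.P235.XC.H531
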