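import Vale.Agent.P235.XC.TXDef
import Vale.Agent.P235.XC.Defs

set_option autoImplicit false

namespace Vale.Agent.P235.XC.H531

/-- the graph of the small statement file is `TX r` -/
theorem crossGrid_eq (r : ℕ) : CrossGrid r = TX r := rfl

end Vale.Agent.P235.XC.H531
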